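import Vale.Agent.P284.H366.LS0

/-!
# Averages of approximations (translations only)
-/

open scoped ContDiff Topology ComplexConjugate
open MeasureTheory Set Filter Metric

noncomputable section

set_option linter.unusedSectionVars false

namespace Vale.Agent.P284.H366.PT

open Vale.Agent.P272.K Vale.Agent.P284.H366

variable {n : ℕ}

/-- translation of balls -/
lemma int_shift {g : Cm n → ℝ} {x s : Cm n} {r : ℝ} :
    ∫ z in ball x r, g (z + s) = ∫ z in ball (x + s) r, g z := by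
  have h1 : MeasurePreserving (fun z : Cm n => z + s) volume volume :=
    measurePreserving_add_right volume s
  have h2 : MeasurableEmbedding (fun z : Cm n => z + s) := measurableEmbedding_addRight s
  have h3 := h1.setIntegral_preimage_emb h2 g (ball (x + s) r)
  have h4 : (fun z : Cm n => z + s) ⁻¹' ball (x + s) r = ball x r := by
    ext z
    simp [mem_ball, dist_eq_norm]
  rw [h4] at h3
  exact h3

lemma ball_shift_sub {x s : Cm n} {r ρ σ : ℝ} (hs : ‖s‖ ≤ σ) (h : r + σ ≤ ρ) :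
    ball (x + s) r ⊆ ball x ρ := by
  intro z hz
  rw [mem_ball, dist_eq_norm] at hz ⊢
  calc ‖z - x‖ = ‖(z - (x + s)) + s‖ := by congr 1; abel
    _ ≤ ‖z - (x + s)‖ + ‖s‖ := norm_add_le _ _
    _ < ρ := by linarith

lemma shift_mem {x z s : Cm n} {r ρ σ : ℝ} (hz : z ∈ closedBall x r) (hs : ‖s‖ ≤ σ)
    (h : r + σ < ρ) : z + s ∈ ball x ρ := by
  rw [mem_closedBall, dist_eq_norm] at hz
  rw [mem_ball, dist_eq_norm]
  calc ‖z + s - x‖ = ‖(z - x) + s‖ := by congr 1; abel
    _ ≤ ‖z - x‖ + ‖s‖ := norm_add_le _ _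
    _ < ρ := by linarith

/-- Cauchy–Schwarz on a set of finite measure -/
lemma cs_set {T : Type*} [MeasurableSpace T] {μ : Measure T} [IsFiniteMeasure μ] {g : T → ℝ}
    (h1 : Integrable g μ) (h2 : Integrable (fun t => g t ^ 2) μ) :
    (∫ t, g t ∂μ) ^ 2 ≤ μ.real univ * ∫ t, g t ^ 2 ∂μ := by
  have h := cs2 (μ := μ) (f := fun _ => (1 : ℝ)) (g := g) (by simp) h2 (by simpa using h1)
  simpa using h

section
variable {T : Type} [TopologicalSpace T] [TopologicalSpace.PseudoMetrizableSpace T] [T2Space T]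
  [SecondCountableTopology T] [MeasurableSpace T] [BorelSpace T] {μ : Measure T}
  [IsFiniteMeasureOnCompacts μ] [SFinite μ]
  {E : Type*} [NormedAddCommGroup E] [NormedSpace ℝ E] [CompleteSpace E]

/-- the average -/
def av (μ : Measure T) (Kc : Set T) (κ : Cm n → T → ℝ) (s : T → Cm n) (w : Cm n → E) (z : Cm n) : E :=
  ∫ t in Kc, κ z t • w (z + s t) ∂μ

variable {Kc : Set T} {κ : Cm n → T → ℝ} {s : T → Cm n} {x : Cm n} {r σ ρ A : ℝ}

/-- hypotheses on the kernel -/
structure Ker (x : Cm n) (r σ ρ A : ℝ) (Kc : Set T) (κ : Cm n → T → ℝ) (s : T → Cm n) : Prop where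
  rpos : 0 < r
  room : r + σ < ρ
  cpt : IsCompact Kc
  scont : Continuous s
  sle : ∀ t ∈ Kc, ‖s t‖ ≤ σ
  kcont : Continuous (fun q : Cm n × T => κ q.1 q.2)
  kle : ∀ z ∈ closedBall x r, ∀ t ∈ Kc, |κ z t| ≤ A
  klip : ∀ z ∈ closedBall x r, ∀ z' ∈ closedBall x r, ∀ t ∈ Kc, |κ z t - κ z' t| ≤ A * ‖z - z'‖
  Ann : 0 ≤ A

lemma Ker.contT (K : Ker x r σ ρ A Kc κ s) {w : Cm n → E} (hw : ContinuousOn w (ball x ρ))
    {z : Cm n} (hz : z ∈ closedBall x r) : ContinuousOn (fun t => κ z t • w (z + s t)) Kc := by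
  refine ContinuousOn.smul ?_ ?_
  · exact (K.kcont.comp (continuous_const.prodMk continuous_id)).continuousOn
  · refine hw.comp (continuous_const.add K.scont).continuousOn fun t ht => ?_
    exact shift_mem hz (K.sle t ht) K.room

lemma Ker.intT (K : Ker x r σ ρ A Kc κ s) {w : Cm n → E} (hw : ContinuousOn w (ball x ρ))
    {z : Cm n} (hz : z ∈ closedBall x r) : IntegrableOn (fun t => κ z t • w (z + s t)) Kc μ :=
  (K.contT hw hz).integrableOn_compact K.cpt

lemma Ker.contP (K : Ker x r σ ρ A Kc κ s) {w : Cm n → E} (hw : ContinuousOn w (ball x ρ)) :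
    ContinuousOn (fun q : Cm n × T => w (q.1 + s q.2)) (closedBall x r ×ˢ Kc) := by
  refine hw.comp (continuous_fst.add (K.scont.comp continuous_snd)).continuousOn ?_
  rintro ⟨z, t⟩ ⟨hz, ht⟩
  exact shift_mem hz (K.sle t ht) K.room

/-- continuity of the average -/
lemma Ker.cont_av (K : Ker x r σ ρ A Kc κ s) {w : Cm n → E} (hw : ContinuousOn w (ball x ρ)) :
    ContinuousOn (av μ Kc κ s w) (closedBall x r) := by
  have hcpt : IsCompact (closedBall x r ×ˢ Kc) := (isCompact_closedBall x r).prod K.cpt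
  obtain ⟨M, hM⟩ := hcpt.exists_bound_of_continuousOn (K.contP hw)
  have hfin : μ Kc < ⊤ := K.cpt.measure_lt_top
  refine continuousOn_of_dominated (bound := fun _ => A * M) (fun z hz => ?_) (fun z hz => ?_)
    (integrableOn_const hfin.ne) ?_
  · exact (K.intT hw hz).aestronglyMeasurable
  · refine (ae_restrict_mem K.cpt.measurableSet).mono fun t ht => ?_
    rw [norm_smul, Real.norm_eq_abs]
    exact mul_le_mul (K.kle z hz t ht) (hM (z, t) ⟨hz, ht⟩) (norm_nonneg _) K.Ann
  · refine (ae_restrict_mem K.cpt.measurableSet).mono fun t ht => ?_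
    refine ContinuousOn.smul ?_ ?_
    · exact (K.kcont.comp (continuous_id.prodMk continuous_const)).continuousOn
    · exact hw.comp (continuous_id.add continuous_const).continuousOn fun z hz =>
        shift_mem hz (K.sle t ht) K.room

/-- the `L²` estimate -/
lemma Ker.l2 (K : Ker x r σ ρ A Kc κ s) {e : Cm n → E} (he : ContinuousOn e (ball x ρ))
    (hi : IntegrableOn (fun z => ‖e z‖ ^ 2) (ball x ρ)) :
    ∫ z in ball x r, ‖av μ Kc κ s e z‖ ^ 2 ≤
      A ^ 2 * (μ.real Kc) ^ 2 * ∫ z in ball x ρ, ‖e z‖ ^ 2 := by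
  have hfin : μ Kc < ⊤ := K.cpt.measure_lt_top
  have hKm : MeasurableSet Kc := K.cpt.measurableSet
  have : IsFiniteMeasure (μ.restrict Kc) := ⟨by rw [Measure.restrict_apply_univ]; exact hfin⟩
  have hreal : (μ.restrict Kc).real univ = μ.real Kc := by
    rw [measureReal_def, Measure.restrict_apply_univ, measureReal_def]
  -- pointwise
  have h1 : ∀ z ∈ ball x r, ‖av μ Kc κ s e z‖ ^ 2 ≤
      A ^ 2 * μ.real Kc * ∫ t in Kc, ‖e (z + s t)‖ ^ 2 ∂μ := by
    intro z hz
    have hz' := ball_subset_closedBall hz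
    have c1 : ContinuousOn (fun t => ‖e (z + s t)‖) Kc :=
      (he.comp (continuous_const.add K.scont).continuousOn fun t ht =>
        shift_mem hz' (K.sle t ht) K.room).norm
    have i1 : Integrable (fun t => ‖e (z + s t)‖) (μ.restrict Kc) := c1.integrableOn_compact K.cpt
    have i2 : Integrable (fun t => ‖e (z + s t)‖ ^ 2) (μ.restrict Kc) :=
      (c1.pow 2).integrableOn_compact K.cpt
    have h2 : ‖av μ Kc κ s e z‖ ≤ A * ∫ t in Kc, ‖e (z + s t)‖ ∂μ := by
      rw [← integral_const_mul]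
      refine norm_integral_le_of_norm_le (i1.const_mul A) ?_
      refine (ae_restrict_mem hKm).mono fun t ht => ?_
      rw [norm_smul, Real.norm_eq_abs]
      exact mul_le_mul_of_nonneg_right (K.kle z hz' t ht) (norm_nonneg _)
    have h3 := cs_set i1 i2
    rw [hreal] at h3
    calc ‖av μ Kc κ s e z‖ ^ 2 ≤ (A * ∫ t in Kc, ‖e (z + s t)‖ ∂μ) ^ 2 :=
          pow_le_pow_left₀ (norm_nonneg _) h2 2
      _ = A ^ 2 * (∫ t in Kc, ‖e (z + s t)‖ ∂μ) ^ 2 := by ring
      _ ≤ A ^ 2 * (μ.real Kc * ∫ t in Kc, ‖e (z + s t)‖ ^ 2 ∂μ) :=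
          mul_le_mul_of_nonneg_left h3 (sq_nonneg _)
      _ = _ := by ring
  -- Fubini
  have hP : Integrable (fun q : Cm n × T => ‖e (q.1 + s q.2)‖ ^ 2)
      ((volume.restrict (ball x r)).prod (μ.restrict Kc)) := by
    rw [Measure.prod_restrict]
    have : IntegrableOn (fun q : Cm n × T => ‖e (q.1 + s q.2)‖ ^ 2) (closedBall x r ×ˢ Kc)
        (volume.prod μ) :=
      ((K.contP he).norm.pow 2).integrableOn_compact ((isCompact_closedBall x r).prod K.cpt)
    exact this.mono_set (prod_mono ball_subset_closedBall le_rfl)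
  have h4 : ∫ z in ball x r, ∫ t in Kc, ‖e (z + s t)‖ ^ 2 ∂μ =
      ∫ t in Kc, (∫ z in ball x r, ‖e (z + s t)‖ ^ 2) ∂μ := integral_integral_swap hP
  have h5 : ∀ t ∈ Kc, ∫ z in ball x r, ‖e (z + s t)‖ ^ 2 ≤ ∫ z in ball x ρ, ‖e z‖ ^ 2 := by
    intro t ht
    rw [int_shift (g := fun z => ‖e z‖ ^ 2)]
    exact setIntegral_mono_set hi (Eventually.of_forall fun z => sq_nonneg _)
      (ball_shift_sub (K.sle t ht) K.room.le).eventuallyLE
  have h6 : ∫ t in Kc, (∫ z in ball x r, ‖e (z + s t)‖ ^ 2) ∂μ ≤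
      μ.real Kc * ∫ z in ball x ρ, ‖e z‖ ^ 2 := by
    have h7 : ∫ t in Kc, (∫ z in ball x r, ‖e (z + s t)‖ ^ 2) ∂μ ≤
        ∫ _t in Kc, (∫ z in ball x ρ, ‖e z‖ ^ 2) ∂μ :=
      setIntegral_mono_on hP.integral_prod_right (integrableOn_const hfin.ne) hKm h5
    rwa [setIntegral_const, smul_eq_mul] at h7
  have i3 : IntegrableOn (fun z => ‖av μ Kc κ s e z‖ ^ 2) (ball x r) :=
    (((K.cont_av (μ := μ) he).norm.pow 2).integrableOn_compact
      (isCompact_closedBall x r)).mono_set ball_subset_closedBall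
  calc ∫ z in ball x r, ‖av μ Kc κ s e z‖ ^ 2
      ≤ ∫ z in ball x r, A ^ 2 * μ.real Kc * ∫ t in Kc, ‖e (z + s t)‖ ^ 2 ∂μ :=
        setIntegral_mono_on i3 (hP.integral_prod_left.const_mul _) measurableSet_ball h1
    _ = A ^ 2 * μ.real Kc * ∫ z in ball x r, ∫ t in Kc, ‖e (z + s t)‖ ^ 2 ∂μ :=
        integral_const_mul _ _
    _ ≤ A ^ 2 * μ.real Kc * (μ.real Kc * ∫ z in ball x ρ, ‖e z‖ ^ 2) := by
        rw [h4]
        exact mul_le_mul_of_nonneg_left h6 (mul_nonneg (sq_nonneg _) measureReal_nonneg)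
    _ = _ := by ring

end

section
variable {T : Type} [TopologicalSpace T] [TopologicalSpace.PseudoMetrizableSpace T] [T2Space T]
  [SecondCountableTopology T] [MeasurableSpace T] [BorelSpace T] {μ : Measure T}
  [IsFiniteMeasureOnCompacts μ] [SFinite μ] {H : ℕ → Type} [∀ k, NormedAddCommGroup (H k)]
  [∀ k, InnerProductSpace ℂ (H k)] [∀ k, CompleteSpace (H k)] {U : Ultrafilter ℕ}
  {Kc : Set T} {κ : Cm n → T → ℝ} {s : T → Cm n} {x : Cm n} {r σ ρ A : ℝ}

/-- **averages of approximations** -/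
lemma Ker.appr (K : Ker x r σ ρ A Kc κ s) {w φ : ∀ k, Cm n → H k} {C : ℝ}
    (h : ApprOn U x w φ ρ C) : ∃ C', ApprOn U x (fun k => av μ Kc κ s (w k))
      (fun k => av μ Kc κ s (φ k)) r C' := by
  set m := μ.real Kc with hm
  have hm0 : 0 ≤ m := measureReal_nonneg
  have hfin : μ Kc < ⊤ := K.cpt.measure_lt_top
  have hA := K.Ann
  have hC := h.nn
  have hsub : ball x r ⊆ closedBall x r := ball_subset_closedBall
  have hsubρ : ∀ z ∈ closedBall x r, ∀ t ∈ Kc, z + s t ∈ ball x ρ := fun z hz t ht =>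
    shift_mem hz (K.sle t ht) K.room
  have hdiff : ∀ k, ∀ z ∈ closedBall x r, av μ Kc κ s (w k) z - av μ Kc κ s (φ k) z =
      av μ Kc κ s (fun y => w k y - φ k y) z := by
    intro k z hz
    unfold av
    rw [← integral_sub (K.intT (h.contv k) hz) (K.intT (h.cont k) hz)]
    simp only [smul_sub]
  have hce : ∀ k, ContinuousOn (fun y => w k y - φ k y) (ball x ρ) := fun k =>
    (h.contv k).sub (h.cont k)
  have hint : ∀ k, IntegrableOn (fun z => ‖av μ Kc κ s (w k) z - av μ Kc κ s (φ k) z‖ ^ 2)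
      (ball x r) := fun k =>
    ((((K.cont_av (μ := μ) (h.contv k)).sub (K.cont_av (μ := μ) (h.cont k))).norm.pow
      2).integrableOn_compact (isCompact_closedBall x r)).mono_set hsub
  refine ⟨2 * (A * C * m), K.rpos, by positivity, fun k z hz => ?_, fun k z hz z' hz' => ?_,
    fun k => (K.cont_av (h.cont k)).mono hsub, hint, ?_⟩
  · have h1 : ‖av μ Kc κ s (w k) z‖ ≤ A * C * m := by
      refine norm_setIntegral_le_of_norm_le_const hfin fun t ht => ?_
      rw [norm_smul, Real.norm_eq_abs]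
      exact mul_le_mul (K.kle z (hsub hz) t ht) (h.bd k _ (hsubρ z (hsub hz) t ht))
        (norm_nonneg _) hA
    have : 0 ≤ A * C * m := by positivity
    linarith
  · have e1 : av μ Kc κ s (w k) z - av μ Kc κ s (w k) z' =
        ∫ t in Kc, (κ z t • w k (z + s t) - κ z' t • w k (z' + s t)) ∂μ := by
      unfold av
      rw [← integral_sub (K.intT (h.contv k) (hsub hz)) (K.intT (h.contv k) (hsub hz'))]
    rw [e1]
    have h1 : ‖∫ t in Kc, (κ z t • w k (z + s t) - κ z' t • w k (z' + s t)) ∂μ‖ ≤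
        (2 * (A * C) * ‖z - z'‖) * m := by
      refine norm_setIntegral_le_of_norm_le_const hfin fun t ht => ?_
      have e2 : κ z t • w k (z + s t) - κ z' t • w k (z' + s t) =
          κ z t • (w k (z + s t) - w k (z' + s t)) + (κ z t - κ z' t) • w k (z' + s t) := by
        rw [smul_sub, sub_smul]; abel
      rw [e2]
      refine (norm_add_le _ _).trans ?_
      rw [norm_smul, norm_smul, Real.norm_eq_abs, Real.norm_eq_abs]
      have h2 := h.lip k _ (hsubρ z (hsub hz) t ht) _ (hsubρ z' (hsub hz') t ht)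
      have e3 : z + s t - (z' + s t) = z - z' := by abel
      rw [e3] at h2
      have h3 := mul_le_mul (K.kle z (hsub hz) t ht) h2 (norm_nonneg _) hA
      have h4 := mul_le_mul (K.klip z (hsub hz) z' (hsub hz') t ht)
        (h.bd k _ (hsubρ z' (hsub hz') t ht)) (norm_nonneg _)
        (mul_nonneg hA (norm_nonneg _))
      nlinarith
    linarith
  · refine squeeze_zero (fun k => integral_nonneg fun z => sq_nonneg _) (fun k => ?_)
      (by simpa using h.lim.const_mul (A ^ 2 * m ^ 2))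
    have e : ∫ z in ball x r, ‖av μ Kc κ s (w k) z - av μ Kc κ s (φ k) z‖ ^ 2 =
        ∫ z in ball x r, ‖av μ Kc κ s (fun y => w k y - φ k y) z‖ ^ 2 :=
      setIntegral_congr_fun measurableSet_ball fun z hz => by
        show ‖av μ Kc κ s (w k) z - av μ Kc κ s (φ k) z‖ ^ 2 = _
        rw [hdiff k z (hsub hz)]
    rw [e]
    exact K.l2 (hce k) (h.int k)

end

end Vale.Agent.P284.H366.PT
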