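import Vale.Agent.P284.H366.PT.Spec
import Vale.Agent.P284.H366.PT.AV

/-!
# `LocBStmt`
-/

open scoped ContDiff Topology ComplexConjugate
open MeasureTheory Set Filter Metric

noncomputable section

set_option linter.unusedSectionVars false

namespace Vale.Agent.P284.H366.PT

open Vale.Agent.P272.K Vale.Agent.P284.H513.V Vale.Agent.P284.H366

variable {n q : ℕ}

section
variable {H : ℕ → Type} [∀ k, NormedAddCommGroup (H k)] [∀ k, InnerProductSpace ℂ (H k)]
  {U : Ultrafilter ℕ}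

/-- approximations on a ball give approximations at all of its points -/
lemma apprOn_at {z₀ x : Cm n} {v φ : ∀ k, Cm n → H k} {ρ C : ℝ} (h : ApprOn U z₀ v φ ρ C)
    (hx : x ∈ ball z₀ ρ) : Appr U x v φ := by
  obtain ⟨r, hr, hb⟩ := Metric.isOpen_iff.1 isOpen_ball x hx
  refine ⟨r, C, hr, h.nn, fun k z hz => h.bd k z (hb hz), fun k z hz z' hz' =>
    h.lip k z (hb hz) z' (hb hz'), fun k => (h.cont k).mono hb, fun k => (h.int k).mono_set hb, ?_⟩
  refine squeeze_zero (fun k => integral_nonneg fun z => sq_nonneg _) (fun k => ?_) h.lim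
  exact setIntegral_mono_set (h.int k) (Eventually.of_forall fun z => sq_nonneg _) hb.eventuallyLE

/-- finitely many approximations, on a common ball -/
lemma appr_common {ι : Type*} (s : Finset ι) {z₀ : Cm n} {w φ : ι → ∀ k, Cm n → H k}
    (h : ∀ i ∈ s, Appr U z₀ (w i) (φ i)) {ρ₀ : ℝ} (hρ₀ : 0 < ρ₀) :
    ∃ ρ C, 0 < ρ ∧ ρ ≤ ρ₀ ∧ ∀ i ∈ s, ApprOn U z₀ (w i) (φ i) ρ C := by
  classical
  induction s using Finset.induction_on with
  | empty => exact ⟨ρ₀, 0, hρ₀, le_rfl, fun i hi => absurd hi (Finset.notMem_empty i)⟩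
  | insert i s hi ih =>
    obtain ⟨ρ, C, h1, h2, h3⟩ := ih fun j hj => h j (by simp [hj])
    obtain ⟨ρ', C', h4⟩ := h i (by simp)
    refine ⟨min ρ ρ', max C C', lt_min h1 h4.pos, (min_le_left _ _).trans h2, fun j hj => ?_⟩
    rcases Finset.mem_insert.1 hj with rfl | hj
    · exact h4.mono (lt_min h1 h4.pos) (min_le_right _ _) (le_max_right _ _)
    · exact (h3 j hj).mono (lt_min h1 h4.pos) (min_le_left _ _) (le_max_left _ _)

end

/-- the real basis of `ℂⁿ` -/
def bas (i : Fin n × Fin 2) : Cm n := if i.2 = 0 then Pi.single i.1 1 else Pi.single i.1 Complex.I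

/-- the real coordinates -/
def cf (i : Fin n × Fin 2) (y : Cm n) : ℝ := if i.2 = 0 then (y i.1).re else (y i.1).im

lemma sum_cf (y : Cm n) : ∑ i : Fin n × Fin 2, (cf i y) • bas i = y := by
  rw [Fintype.sum_prod_type]
  funext l
  rw [Finset.sum_apply, Finset.sum_eq_single l]
  · rw [Fin.sum_univ_two]
    simp only [cf, bas]
    rw [Pi.add_apply]
    simp only [if_true, Pi.smul_apply, Pi.single_eq_same, Fin.isValue, one_ne_zero, if_false,
      Complex.real_smul]
    rw [mul_one]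
    exact Complex.re_add_im (y l)
  · intro b _ hb
    rw [Fin.sum_univ_two]
    simp only [cf, bas]
    simp [Pi.single_eq_of_ne hb.symm]
  · intro h
    exact absurd (Finset.mem_univ _) h

lemma cf_cont (i : Fin n × Fin 2) : Continuous (cf i) := by
  unfold cf
  split_ifs
  · exact Complex.continuous_re.comp (continuous_apply _)
  · exact Complex.continuous_im.comp (continuous_apply _)

lemma cf_le (i : Fin n × Fin 2) (y : Cm n) : |cf i y| ≤ ‖y‖ := by
  unfold cf
  split_ifs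
  · exact (Complex.abs_re_le_norm _).trans (norm_le_pi_norm y i.1)
  · exact (Complex.abs_im_le_norm _).trans (norm_le_pi_norm y i.1)

section
variable {E : Type*} [NormedAddCommGroup E] [NormedSpace ℝ E] [CompleteSpace E]

/-- fundamental theorem of calculus along a segment -/
lemma ftc {Ψ : Cm n → E} {ρ : ℝ} (hsm : ∀ x ∈ ball (0 : Cm n) ρ, ContDiffAt ℝ 1 Ψ x) {z v : Cm n}
    (h : ∀ τ ∈ Icc (0 : ℝ) 1, z + τ • v ∈ ball (0 : Cm n) ρ) :
    ∫ τ in Icc (0 : ℝ) 1, fderiv ℝ Ψ (z + τ • v) v = Ψ (z + v) - Ψ z := by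
  rw [integral_Icc_eq_integral_Ioc, ← intervalIntegral.integral_of_le zero_le_one]
  have h1 : ∀ τ ∈ uIcc (0 : ℝ) 1, HasDerivAt (fun τ : ℝ => Ψ (z + τ • v))
      (fderiv ℝ Ψ (z + τ • v) v) τ := by
    intro τ hτ
    rw [uIcc_of_le zero_le_one] at hτ
    have h2 : HasFDerivAt Ψ (fderiv ℝ Ψ (z + τ • v)) (z + τ • v) :=
      ((hsm _ (h τ hτ)).differentiableAt (by simp)).hasFDerivAt
    have h3 : HasDerivAt (fun τ : ℝ => z + τ • v) v τ := by
      have := ((hasDerivAt_id τ).smul_const v).const_add z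
      simpa using this
    exact h2.comp_hasDerivAt τ h3
  have h4 : ContinuousOn (fun τ : ℝ => fderiv ℝ Ψ (z + τ • v) v) (uIcc (0 : ℝ) 1) := by
    intro τ hτ
    rw [uIcc_of_le zero_le_one] at hτ
    have h5 : ContinuousAt (fderiv ℝ Ψ) (z + τ • v) :=
      ((hsm _ (h τ hτ)).fderiv_right (m := 0) (by simp)).continuousAt
    have h6 : ContinuousAt (fun τ : ℝ => fderiv ℝ Ψ (z + τ • v)) τ :=
      ContinuousAt.comp (f := fun τ : ℝ => z + τ • v) h5 (by fun_prop)
    exact (h6.clm_apply continuousAt_const).continuousWithinAt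
  rw [intervalIntegral.integral_eq_sub_of_hasDerivAt h1 h4.intervalIntegrable]
  simp

/-- the parameter set of the averages -/
def KK (n : ℕ) (r : ℝ) : Set (Cm n × ℝ) := closedBall (0 : Cm n) (2 * r) ×ˢ Icc (0 : ℝ) 1

/-- the kernel -/
def kk (η : Cm n → ℝ) (i : Fin n × Fin 2) (z : Cm n) (t : Cm n × ℝ) : ℝ := η (t.1 + z) * cf i t.1

/-- the translations -/
def ss (P : Cm n →L[ℝ] Cm n) (t : Cm n × ℝ) : Cm n := t.2 • P t.1

lemma ker_kk {η Θ : Cm n → ℝ} {r : ℝ} (hr : 0 < r) (m : Mol r η Θ) {P : Cm n →L[ℝ] Cm n} {M ρ : ℝ}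
    (hM0 : 0 ≤ M) (hM : ∀ v, ‖P v‖ ≤ M * ‖v‖) (hρ : r + 2 * M * r < ρ) (i : Fin n × Fin 2) :
    ∃ A, Ker (0 : Cm n) r (2 * M * r) ρ A (KK n r) (kk η i) (ss P) := by
  obtain ⟨K, hK⟩ := exists_molC m
  refine ⟨K * (2 * r), hr, hρ, (isCompact_closedBall _ _).prod isCompact_Icc, ?_, ?_, ?_, ?_, ?_,
    mul_nonneg hK.nn (by linarith)⟩
  · exact continuous_snd.smul (P.continuous.comp continuous_fst)
  · rintro ⟨y, τ⟩ ⟨hy, hτ⟩
    rw [mem_closedBall, dist_zero_right] at hy
    show ‖τ • P y‖ ≤ _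
    rw [norm_smul, Real.norm_eq_abs, abs_of_nonneg hτ.1]
    have h1 := hM y
    have h2 : M * ‖y‖ ≤ M * (2 * r) := mul_le_mul_of_nonneg_left hy hM0
    have h3 : τ * ‖P y‖ ≤ 1 * ‖P y‖ := mul_le_mul_of_nonneg_right hτ.2 (norm_nonneg _)
    linarith
  · show Continuous fun q : Cm n × (Cm n × ℝ) => η (q.2.1 + q.1) * cf i q.2.1
    have h1 : Continuous η := m.smooth.continuous
    exact (h1.comp ((continuous_fst.comp continuous_snd).add continuous_fst)).mul
      ((cf_cont i).comp (continuous_fst.comp continuous_snd))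
  · rintro z - ⟨y, τ⟩ ⟨hy, hτ⟩
    rw [mem_closedBall, dist_zero_right] at hy
    show |η (y + z) * cf i y| ≤ _
    rw [abs_mul]
    exact mul_le_mul (hK.b0 _) ((cf_le i y).trans hy) (abs_nonneg _) hK.nn
  · rintro z - z' - ⟨y, τ⟩ ⟨hy, hτ⟩
    rw [mem_closedBall, dist_zero_right] at hy
    show |η (y + z) * cf i y - η (y + z') * cf i y| ≤ _
    rw [← sub_mul, abs_mul]
    have h1 := hK.l0 (y + z) (y + z')
    have e : y + z - (y + z') = z - z' := by abel
    rw [e] at h1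
    have h2 := mul_le_mul h1 ((cf_le i y).trans hy) (abs_nonneg _)
      (mul_nonneg hK.nn (norm_nonneg _))
    linarith

/-- **the identity** -/
lemma avg_id {η Θ : Cm n → ℝ} {r : ℝ} (hr : 0 < r) (m : Mol r η Θ) {P Q : Cm n →L[ℝ] Cm n}
    (hPQ : ∀ z, Q z + P z = z) {M ρ : ℝ} (hM0 : 0 ≤ M) (hM : ∀ v, ‖P v‖ ≤ M * ‖v‖)
    (hMQ : ∀ v, ‖Q v‖ ≤ M * ‖v‖) (hρ : r + 2 * M * r < ρ) {Ψ : Cm n → E}
    (hsm : ∀ x ∈ ball (0 : Cm n) ρ, ContDiffAt ℝ 1 Ψ x) {z : Cm n} (hz : z ∈ ball (0 : Cm n) r) :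
    ∑ i, av volume (KK n r) (kk η i) (ss P) (fun x => fderiv ℝ Ψ x (P (bas i))) z =
      (∫ h, η h • Ψ (Q z + P h)) - Ψ z := by
  have hz' : ‖z‖ < r := by rwa [mem_ball, dist_zero_right] at hz
  have hcD : ∀ v, ContinuousOn (fun x => fderiv ℝ Ψ x v) (ball (0 : Cm n) ρ) := fun v x hx =>
    (((hsm x hx).fderiv_right (m := 0) (by simp)).continuousAt.clm_apply
      continuousAt_const).continuousWithinAt
  have hcΨ : ContinuousOn Ψ (ball (0 : Cm n) ρ) := fun x hx =>
    (hsm x hx).continuousAt.continuousWithinAt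
  have hmem : ∀ y ∈ closedBall (0 : Cm n) (2 * r), ∀ τ ∈ Icc (0 : ℝ) 1,
      z + τ • P y ∈ ball (0 : Cm n) ρ := by
    intro y hy τ hτ
    rw [mem_closedBall, dist_zero_right] at hy
    rw [mem_ball, dist_zero_right]
    have h1 : ‖τ • P y‖ ≤ M * (2 * r) := by
      rw [norm_smul, Real.norm_eq_abs, abs_of_nonneg hτ.1]
      have h1 := hM y
      have h2 : M * ‖y‖ ≤ M * (2 * r) := mul_le_mul_of_nonneg_left hy hM0
      have h3 : τ * ‖P y‖ ≤ 1 * ‖P y‖ := mul_le_mul_of_nonneg_right hτ.2 (norm_nonneg _)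
      linarith
    have h2 := norm_add_le z (τ • P y)
    linarith
  have hmemQ : ∀ h : Cm n, ‖h‖ ≤ r → Q z + P h ∈ ball (0 : Cm n) ρ := by
    intro h hh
    rw [mem_ball, dist_zero_right]
    have h1 := norm_add_le (Q z) (P h)
    have h2 := hMQ z
    have h3 := hM h
    have h4 : M * ‖z‖ ≤ M * r := mul_le_mul_of_nonneg_left hz'.le hM0
    have h5 : M * ‖h‖ ≤ M * r := mul_le_mul_of_nonneg_left hh hM0
    linarith
  -- (1), (2)
  have e1 : ∀ t : Cm n × ℝ, ∑ i, kk η i z t • fderiv ℝ Ψ (z + ss P t) (P (bas i)) =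
      η (t.1 + z) • fderiv ℝ Ψ (z + t.2 • P t.1) (P t.1) := by
    intro t
    have h1 : fderiv ℝ Ψ (z + t.2 • P t.1) (P t.1) =
        ∑ i, cf i t.1 • fderiv ℝ Ψ (z + t.2 • P t.1) (P (bas i)) := by
      generalize fderiv ℝ Ψ (z + t.2 • P t.1) = A
      calc A (P t.1) = A (P (∑ i, cf i t.1 • bas i)) := by rw [sum_cf]
        _ = _ := by
          rw [map_sum, map_sum]
          refine Finset.sum_congr rfl fun i _ => ?_
          rw [map_smul, map_smul]
    rw [h1, Finset.smul_sum]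
    refine Finset.sum_congr rfl fun i _ => ?_
    rw [smul_smul]
    rfl
  have hker : ∀ i, ∃ A, Ker (0 : Cm n) r (2 * M * r) ρ A (KK n r) (kk η i) (ss P) :=
    fun i => ker_kk hr m hM0 hM hρ i
  have e2 : ∑ i, av volume (KK n r) (kk η i) (ss P) (fun x => fderiv ℝ Ψ x (P (bas i))) z =
      ∫ t in KK n r, η (t.1 + z) • fderiv ℝ Ψ (z + t.2 • P t.1) (P t.1) := by
    unfold av
    rw [← integral_finsetSum _ fun i _ => by
      obtain ⟨A, hA⟩ := hker i
      exact hA.intT (μ := volume) (hcD (P (bas i))) (ball_subset_closedBall hz)]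
    exact integral_congr_ae (Eventually.of_forall e1)
  -- (3), (4)
  have hcont : ContinuousOn (fun t : Cm n × ℝ => η (t.1 + z) •
      fderiv ℝ Ψ (z + t.2 • P t.1) (P t.1)) (KK n r) := by
    refine ContinuousOn.smul ?_ ?_
    · exact (m.smooth.continuous.comp (continuous_fst.add continuous_const)).continuousOn
    · refine ContinuousOn.clm_apply ?_ (P.continuous.comp continuous_fst).continuousOn
      have h1 : ContinuousOn (fderiv ℝ Ψ) (ball (0 : Cm n) ρ) := fun x hx =>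
        ((hsm x hx).fderiv_right (m := 0) (by simp)).continuousAt.continuousWithinAt
      refine h1.comp (f := fun t : Cm n × ℝ => z + t.2 • P t.1) ?_ ?_
      · exact (continuous_const.add
          (continuous_snd.smul (P.continuous.comp continuous_fst))).continuousOn
      · rintro ⟨y, τ⟩ ⟨hy, hτ⟩
        exact hmem y hy τ hτ
  have hi : IntegrableOn (fun t : Cm n × ℝ => η (t.1 + z) •
      fderiv ℝ Ψ (z + t.2 • P t.1) (P t.1)) (closedBall (0 : Cm n) (2 * r) ×ˢ Icc (0 : ℝ) 1)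
      ((volume : Measure (Cm n)).prod volume) :=
    hcont.integrableOn_compact ((isCompact_closedBall _ _).prod isCompact_Icc)
  have e3 : ∫ t in KK n r, η (t.1 + z) • fderiv ℝ Ψ (z + t.2 • P t.1) (P t.1) =
      ∫ y in closedBall (0 : Cm n) (2 * r), η (y + z) • (Ψ (z + P y) - Ψ z) := by
    refine (setIntegral_prod _ hi).trans ?_
    refine setIntegral_congr_fun measurableSet_closedBall fun y hy => ?_
    show ∫ τ in Icc (0 : ℝ) 1, η (y + z) • fderiv ℝ Ψ (z + τ • P y) (P y) = _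
    rw [integral_smul, ftc hsm fun τ hτ => hmem y hy τ hτ]
  -- (5), (6)
  have e4 : ∫ y in closedBall (0 : Cm n) (2 * r), η (y + z) • (Ψ (z + P y) - Ψ z) =
      ∫ y, η (y + z) • (Ψ (z + P y) - Ψ z) := by
    refine setIntegral_eq_integral_of_forall_compl_eq_zero fun y hy => ?_
    rw [mem_closedBall, dist_zero_right, not_le] at hy
    rw [m.zero, zero_smul]
    have h1 : ‖y‖ ≤ ‖y + z‖ + ‖z‖ := by
      calc ‖y‖ = ‖(y + z) - z‖ := by congr 1; abel
        _ ≤ _ := norm_sub_le _ _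
    linarith
  have e5 : ∫ y, η (y + z) • (Ψ (z + P y) - Ψ z) = ∫ h, η h • (Ψ (Q z + P h) - Ψ z) := by
    rw [← integral_add_right_eq_self (fun h => η h • (Ψ (Q z + P h) - Ψ z)) z]
    refine integral_congr_ae (Eventually.of_forall fun y => ?_)
    show η (y + z) • (Ψ (z + P y) - Ψ z) = η (y + z) • (Ψ (Q z + P (y + z)) - Ψ z)
    have h1 : Q z + P (y + z) = z + P y := by
      rw [map_add]
      conv_rhs => rw [← hPQ z]
      abel
    rw [h1]
  -- (7)
  have i1 : Integrable (fun h => η h • Ψ (Q z + P h)) := by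
    have h1 : IntegrableOn (fun h => η h • Ψ (Q z + P h)) (closedBall (0 : Cm n) r) := by
      refine ContinuousOn.integrableOn_compact (isCompact_closedBall _ _)
        (ContinuousOn.smul m.smooth.continuous.continuousOn ?_)
      refine hcΨ.comp (f := fun h => Q z + P h)
        (continuous_const.add P.continuous).continuousOn fun h hh => ?_
      rw [mem_closedBall, dist_zero_right] at hh
      exact hmemQ h hh
    refine h1.integrable_of_forall_notMem_eq_zero fun h hh => ?_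
    rw [mem_closedBall, dist_zero_right, not_le] at hh
    rw [m.zero h hh.le, zero_smul]
  have i2 : Integrable (fun h => η h • Ψ z) :=
    (m.smooth.continuous.integrable_of_hasCompactSupport m.hcs).smul_const _
  rw [e2, e3, e4, e5]
  simp only [smul_sub]
  rw [integral_sub i1 i2, integral_smul_const, m.one, one_smul]

end

/-- **LocB** -/
theorem locB : LocBStmt := by
  intro n q H _ _ _ U L hL Ψ ρ₀ hρ₀ hsm hv
  obtain ⟨R₀, hR₀⟩ := (L : Cm n →ₗ[ℂ] Cm q).exists_rightInverse_of_surjective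
    (LinearMap.range_eq_top.2 hL)
  have hLR : ∀ t, L (R₀ t) = t := fun t => by
    have := congrArg (fun f : Cm q →ₗ[ℂ] Cm q => f t) hR₀
    simpa using this
  set R : Cm q →L[ℂ] Cm n := LinearMap.toContinuousLinearMap R₀ with hR
  set QC : Cm n →L[ℂ] Cm n := R.comp L with hQC
  set PC : Cm n →L[ℂ] Cm n := ContinuousLinearMap.id ℂ (Cm n) - QC with hPC
  set Q : Cm n →L[ℝ] Cm n := QC.restrictScalars ℝ with hQ
  set P : Cm n →L[ℝ] Cm n := PC.restrictScalars ℝ with hP
  have hPQ : ∀ z, Q z + P z = z := fun z => by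
    show QC z + (z - QC z) = z
    abel
  have hLP : ∀ z, L (P z) = 0 := fun z => by
    show L (z - R₀ (L z)) = 0
    rw [map_sub, hLR, sub_self]
  set M : ℝ := max 1 (max ‖P‖ ‖Q‖) with hMd
  have hM1 : 1 ≤ M := le_max_left _ _
  have hMP : ∀ v, ‖P v‖ ≤ M * ‖v‖ := fun v => (P.le_opNorm v).trans
    (mul_le_mul_of_nonneg_right ((le_max_left _ _).trans (le_max_right _ _)) (norm_nonneg _))
  have hMQ : ∀ v, ‖Q v‖ ≤ M * ‖v‖ := fun v => (Q.le_opNorm v).trans
    (mul_le_mul_of_nonneg_right ((le_max_right _ _).trans (le_max_right _ _)) (norm_nonneg _))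
  choose w hw using fun i : Fin n × Fin 2 => hv (P (bas i)) (hLP _)
  obtain ⟨ρ, C, hρ, hρle, hC⟩ := appr_common Finset.univ (w := w)
    (φ := fun i k x => fderiv ℝ (Ψ k) x (P (bas i))) (fun i _ => hw i) hρ₀
  set r : ℝ := ρ / (4 * M) with hr
  have hr0 : 0 < r := by positivity
  have hroom : r + 2 * M * r < ρ := by
    have h1 : 4 * M * r = ρ := by rw [hr]; field_simp
    have h2 : r ≤ M * r := le_mul_of_one_le_left hr0.le hM1
    nlinarith
  obtain ⟨η, Θ, m⟩ := exists_mol (n := n) hr0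
  have hsm' : ∀ k, ∀ x ∈ ball (0 : Cm n) ρ, ContDiffAt ℝ 1 (Ψ k) x := fun k x hx =>
    hsm k x (ball_subset_ball hρle hx)
  have hM0 : 0 ≤ M := zero_le_one.trans hM1
  choose A hA using fun i : Fin n × Fin 2 => ker_kk hr0 m (P := P) (M := M) (ρ := ρ) hM0 hMP hroom i
  choose C' hC' using fun i : Fin n × Fin 2 => (hA i).appr (μ := volume) (hC i (Finset.mem_univ _))
  refine ⟨fun k t => ∫ h, η h • Ψ k (R t + P h), r, hr0, fun x hx => ?_⟩
  have h1 := (Appr.sum Finset.univ fun i _ => apprOn_at (hC' i) hx).neg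
  refine ⟨_, h1.congr (Eventually.of_forall fun z k => rfl) ?_⟩
  filter_upwards [isOpen_ball.mem_nhds hx] with z hz k
  have h2 := avg_id hr0 m hPQ hM0 hMP hMQ hroom (hsm' k) hz
  rw [h2]
  have h3 : Q z = R (L z) := rfl
  rw [h3]
  abel

end Vale.Agent.P284.H366.PT
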