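import Vale.Agent.P284.H366.PT.LocB
import Vale.Agent.P284.H213.PT.Trans
import Mathlib.Analysis.Calculus.MeanValue

/-!
# `LocDStmt`
-/

open scoped ContDiff Topology ComplexConjugate
open MeasureTheory Set Filter Metric

noncomputable section

set_option linter.unusedSectionVars false

namespace Vale.Agent.P284.H366.PT

open Vale.Agent.P272.K Vale.Agent.P284.H513.V Vale.Agent.P284.H366

variable {n q : ℕ}

section
variable {E : Type*} [NormedAddCommGroup E] [NormedSpace ℝ E] [CompleteSpace E]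

/-- fundamental theorem of calculus along a segment -/
lemma ftc' {Ψ : Cm n → E} {z v : Cm n} (hsm : ∀ τ ∈ Icc (0 : ℝ) 1, ContDiffAt ℝ 1 Ψ (z + τ • v)) :
    ∫ τ in Icc (0 : ℝ) 1, fderiv ℝ Ψ (z + τ • v) v = Ψ (z + v) - Ψ z := by
  rw [integral_Icc_eq_integral_Ioc, ← intervalIntegral.integral_of_le zero_le_one]
  have h1 : ∀ τ ∈ uIcc (0 : ℝ) 1, HasDerivAt (fun τ : ℝ => Ψ (z + τ • v))
      (fderiv ℝ Ψ (z + τ • v) v) τ := by
    intro τ hτ
    rw [uIcc_of_le zero_le_one] at hτ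
    have h2 : HasFDerivAt Ψ (fderiv ℝ Ψ (z + τ • v)) (z + τ • v) :=
      ((hsm τ hτ).differentiableAt (by simp)).hasFDerivAt
    have h3 : HasDerivAt (fun τ : ℝ => z + τ • v) v τ := by
      have := ((hasDerivAt_id τ).smul_const v).const_add z
      simpa using this
    exact h2.comp_hasDerivAt τ h3
  have h4 : ContinuousOn (fun τ : ℝ => fderiv ℝ Ψ (z + τ • v) v) (uIcc (0 : ℝ) 1) := by
    intro τ hτ
    rw [uIcc_of_le zero_le_one] at hτ
    have h5 : ContinuousAt (fderiv ℝ Ψ) (z + τ • v) :=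
      ((hsm τ hτ).fderiv_right (m := 0) (by simp)).continuousAt
    have h6 : ContinuousAt (fun τ : ℝ => fderiv ℝ Ψ (z + τ • v)) τ :=
      ContinuousAt.comp (f := fun τ : ℝ => z + τ • v) h5 (by fun_prop)
    exact (h6.clm_apply continuousAt_const).continuousWithinAt
  rw [intervalIntegral.integral_eq_sub_of_hasDerivAt h1 h4.intervalIntegrable]
  simp

end

section
variable {H : ℕ → Type} [∀ k, NormedAddCommGroup (H k)] [∀ k, InnerProductSpace ℂ (H k)]
  {U : Ultrafilter ℕ}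

lemma appr_shift {x a : Cm n} {v φ : ∀ k, Cm n → H k} (h : Appr U (x + a) v φ) :
    Appr U x (fun k z => v k (z + a)) (fun k z => φ k (z + a)) := by
  have hT : AnalyticAt ℂ (fun z : Cm n => z + a) x := analyticAt_id.add analyticAt_const
  have hd : fderiv ℂ (fun z : Cm n => z + a) x = ContinuousLinearMap.id ℂ (Cm n) := by
    rw [fderiv_add_const]
    exact fderiv_fun_id
  exact H213.PT.compStmt n H U (fun z => z + a) x hT (by rw [hd]; exact Function.bijective_id) v φ h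

variable [∀ k, CompleteSpace (H k)]

lemma ker_line {x v : Cm n} {h ρ : ℝ} (hρ : 0 < ρ) (hv : ‖h • v‖ ≤ ρ / 4) :
    Ker (x : Cm n) (ρ / 4) (ρ / 4) ρ |h| (Icc (0 : ℝ) 1) (fun _ _ => h) (fun τ => τ • (h • v)) := by
  refine ⟨by positivity, by linarith, isCompact_Icc, by fun_prop, fun τ hτ => ?_,
    continuous_const, fun z _ t _ => le_rfl, fun z _ z' _ t _ => ?_, abs_nonneg h⟩
  · rw [norm_smul, Real.norm_eq_abs, abs_of_nonneg hτ.1]
    calc τ * ‖h • v‖ ≤ 1 * ‖h • v‖ := mul_le_mul_of_nonneg_right hτ.2 (norm_nonneg _)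
      _ ≤ ρ / 4 := by rw [one_mul]; exact hv
  · rw [sub_self, abs_zero]
    positivity

/-- the estimate for the difference quotient -/
lemma loc_est {L : Cm n →L[ℂ] Cm q} {Ψ : ∀ k, Cm n → H k} {x : Cm n} {ρ C : ℝ}
    (hsm : ∀ k, ∀ y ∈ ball x ρ, ContDiffAt ℝ 1 (Ψ k) y) {b : ∀ k, Cm q → H k}
    {V w : ∀ k, Cm n → H k} {v : Cm n} (hv : L v = 0)
    (hV : ApprOn U x V (fun k y => Ψ k y - b k (L y)) ρ C)
    (hw : ApprOn U x w (fun k y => fderiv ℝ (Ψ k) y v) ρ C) {h : ℝ} (hh : ‖h • v‖ ≤ ρ / 4) :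
    ‖mk U (fun k => V k (x + h • v)) - mk U (fun k => V k x) - h • mk U (fun k => w k x)‖ ≤
      C * ‖v‖ * h ^ 2 := by
  have hρ := hV.pos
  have hK := ker_line (x := x) (v := v) (h := h) hρ hh
  obtain ⟨C', hA⟩ := hK.appr (μ := (volume : Measure ℝ)) hw
  have hxh : x + h • v ∈ ball x ρ := by
    rw [mem_ball, dist_eq_norm]
    have : x + h • v - x = h • v := by abel
    rw [this]
    linarith
  have hS : Appr U x (fun k z => V k (z + h • v)) (fun k z => Ψ k (z + h • v) -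
      b k (L (z + h • v))) := appr_shift (apprOn_at hV hxh)
  have hE := (hS.sub ⟨ρ, C, hV⟩).sub ⟨_, C', hA⟩
  have hE0 : Appr U x (fun k z => V k (z + h • v) - V k z -
      av volume (Icc (0 : ℝ) 1) (fun _ _ => h) (fun τ => τ • (h • v)) (w k) z) (fun _ _ => 0) := by
    refine hE.congr (Eventually.of_forall fun z k => rfl) ?_
    filter_upwards [isOpen_ball.mem_nhds (mem_ball_self (x := x) (show 0 < ρ / 4 by positivity))]
      with z hz k
    have h1 : av volume (Icc (0 : ℝ) 1) (fun _ _ => h) (fun τ => τ • (h • v))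
        (fun y => fderiv ℝ (Ψ k) y v) z = Ψ k (z + h • v) - Ψ k z := by
      rw [← ftc' (z := z) (v := h • v) (Ψ := Ψ k) fun τ hτ => hsm k _ ?_]
      · unfold av
        refine setIntegral_congr_fun measurableSet_Icc fun τ _ => ?_
        show h • fderiv ℝ (Ψ k) (z + τ • (h • v)) v = _
        rw [map_smul]
      · exact shift_mem (ball_subset_closedBall hz) (hK.sle τ hτ) hK.room
    rw [h1]
    have h2 : L (z + h • v) = L z := by
      rw [map_add]
      have : L (h • v) = 0 := by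
        have e : h • v = ((h : ℝ) : ℂ) • v := (Complex.coe_smul h v).symm
        rw [e, map_smul, hv, smul_zero]
      rw [this, add_zero]
    rw [h2]
    abel
  -- limits
  have b1 : Bd fun k => V k (x + h • v) := hS.bdd
  have b2 : Bd fun k => V k x := (show Appr U x V _ from ⟨ρ, C, hV⟩).bdd
  have b3 : Bd fun k => av volume (Icc (0 : ℝ) 1) (fun _ _ => h) (fun τ => τ • (h • v)) (w k) x :=
    (show Appr U x _ _ from ⟨_, C', hA⟩).bdd
  have b4 : Bd fun k => w k x := (show Appr U x w _ from ⟨ρ, C, hw⟩).bdd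
  have h3 := hE0.mk_eq_zero
  have h4 : mk U (fun k => V k (x + h • v)) - mk U (fun k => V k x) =
      mk U fun k => av volume (Icc (0 : ℝ) 1) (fun _ _ => h) (fun τ => τ • (h • v)) (w k) x := by
    have e : (fun k => V k (x + h • v) - V k x -
        av volume (Icc (0 : ℝ) 1) (fun _ _ => h) (fun τ => τ • (h • v)) (w k) x) =
        ((fun k => V k (x + h • v)) - fun k => V k x) - fun k =>
          av volume (Icc (0 : ℝ) 1) (fun _ _ => h) (fun τ => τ • (h • v)) (w k) x := rfl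
    rw [e, mk_sub (b1.sub b2) b3, mk_sub b1 b2] at h3
    exact sub_eq_zero.1 h3
  rw [h4]
  have h5 : h • mk U (fun k => w k x) = mk U fun k => h • w k x := by
    have e1 : h • mk U (fun k => w k x) = ((h : ℝ) : ℂ) • mk U (fun k => w k x) :=
      (Complex.coe_smul h _).symm
    rw [e1, ← mk_smul _ b4]
    rfl
  have b5 : Bd fun k => h • w k x := by
    obtain ⟨B, hB⟩ := b4
    refine ⟨|h| * B, fun k => ?_⟩
    rw [norm_smul, Real.norm_eq_abs]
    exact mul_le_mul_of_nonneg_left (hB k) (abs_nonneg _)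
  rw [h5, ← mk_sub b3 b5]
  refine norm_mk_le fun k => ?_
  show ‖av volume (Icc (0 : ℝ) 1) (fun _ _ => h) (fun τ => τ • (h • v)) (w k) x - h • w k x‖ ≤ _
  have e6 : av volume (Icc (0 : ℝ) 1) (fun _ _ => h) (fun τ => τ • (h • v)) (w k) x - h • w k x =
      ∫ τ in Icc (0 : ℝ) 1, h • (w k (x + τ • (h • v)) - w k x) := by
    have e7 : h • w k x = ∫ _τ in Icc (0 : ℝ) 1, h • w k x := by
      rw [setIntegral_const]
      simp
    conv_lhs => rw [e7]
    unfold av
    rw [← integral_sub (hK.intT (hw.contv k) (mem_closedBall_self (by positivity)))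
      (integrableOn_const (by simp))]
    simp only [smul_sub]
  rw [e6]
  have h8 : ‖∫ τ in Icc (0 : ℝ) 1, h • (w k (x + τ • (h • v)) - w k x)‖ ≤
      (C * ‖v‖ * h ^ 2) * (volume : Measure ℝ).real (Icc (0 : ℝ) 1) := by
    refine norm_setIntegral_le_of_norm_le_const (by simp) fun τ hτ => ?_
    rw [norm_smul, Real.norm_eq_abs]
    have h9 := hw.lip k (x + τ • (h • v)) (shift_mem (mem_closedBall_self (by positivity))
      (hK.sle τ hτ) hK.room) x (mem_ball_self hρ)
    have e8 : x + τ • (h • v) - x = τ • (h • v) := by abel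
    rw [e8, norm_smul, norm_smul, Real.norm_eq_abs, Real.norm_eq_abs, abs_of_nonneg hτ.1] at h9
    have h10 : τ * (|h| * ‖v‖) ≤ 1 * (|h| * ‖v‖) :=
      mul_le_mul_of_nonneg_right hτ.2 (by positivity)
    have h11 : C * (τ * (|h| * ‖v‖)) ≤ C * (1 * (|h| * ‖v‖)) :=
      mul_le_mul_of_nonneg_left h10 hw.nn
    calc |h| * ‖w k (x + τ • (h • v)) - w k x‖ ≤ |h| * (C * (1 * (|h| * ‖v‖))) :=
          mul_le_mul_of_nonneg_left (h9.trans h11) (abs_nonneg _)
      _ = C * ‖v‖ * (|h| * |h|) := by ring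
      _ = C * ‖v‖ * h ^ 2 := by rw [abs_mul_abs_self, sq]
  simpa using h8

/-- the derivative along vertical lines -/
lemma loc_deriv {L : Cm n →L[ℂ] Cm q} {Ψ : ∀ k, Cm n → H k} {x : Cm n} {ρ : ℝ} (hρ : 0 < ρ)
    (hsm : ∀ k, ∀ y ∈ ball x ρ, ContDiffAt ℝ 1 (Ψ k) y) {b : ∀ k, Cm q → H k}
    {V w : ∀ k, Cm n → H k} {v : Cm n} (hv : L v = 0)
    (hV : Appr U x V (fun k y => Ψ k y - b k (L y)))
    (hw : Appr U x w (fun k y => fderiv ℝ (Ψ k) y v)) :
    HasDerivAt (fun h : ℝ => mk U (fun k => V k (x + h • v))) (mk U fun k => w k x) 0 := by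
  obtain ⟨ρ₁, C, h1, h2⟩ := ApprOn.both hV hw
  set ρ₂ := min ρ ρ₁ with hρ₂
  have hρ₂0 : 0 < ρ₂ := lt_min hρ h1.pos
  have h1' := h1.mono hρ₂0 (min_le_right _ _) le_rfl
  have h2' := h2.mono hρ₂0 (min_le_right _ _) le_rfl
  have hsm' : ∀ k, ∀ y ∈ ball x ρ₂, ContDiffAt ℝ 1 (Ψ k) y := fun k y hy =>
    hsm k y (ball_subset_ball (min_le_left _ _) hy)
  rw [hasDerivAt_iff_isLittleO_nhds_zero]
  have hb : ∀ᶠ h : ℝ in 𝓝 0, ‖h • v‖ ≤ ρ₂ / 4 := by
    have : Tendsto (fun h : ℝ => ‖h • v‖) (𝓝 0) (𝓝 0) := by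
      have h3 : Continuous fun h : ℝ => ‖h • v‖ := by fun_prop
      have := h3.tendsto 0
      simpa using this
    exact (this.eventually (gt_mem_nhds (show (0 : ℝ) < ρ₂ / 4 by positivity))).mono
      fun h hh => le_of_lt hh
  have hO : (fun h : ℝ => mk U (fun k => V k (x + (0 + h) • v)) - mk U (fun k => V k (x + (0 : ℝ) • v)) -
      h • mk U (fun k => w k x)) =O[𝓝 0] fun h : ℝ => h ^ 2 := by
    refine Asymptotics.IsBigO.of_bound (C * ‖v‖) ?_
    filter_upwards [hb] with h hh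
    have := loc_est hsm' hv h1' h2' hh
    rw [zero_add, zero_smul, add_zero]
    rw [norm_pow, Real.norm_eq_abs, sq_abs]
    exact this
  exact hO.trans_isLittleO (Asymptotics.isLittleO_pow_id one_lt_two)

end

/-- **LocD** -/
theorem locD : LocDStmt := by
  intro n q H _ _ _ U L Ψ x₁ ρ hρ hsm b V hV G hG
  obtain ⟨ρ₁, C, hA⟩ := hV
  refine ⟨min ρ ρ₁, lt_min hρ hA.pos, fun x hx hLx => ?_⟩
  set ε := min ρ ρ₁ with hε
  set v := x - x₁ with hv
  have hLv : L v = 0 := by rw [hv, map_sub, hLx, sub_self]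
  have hmem : ∀ s ∈ Icc (0 : ℝ) 1, x₁ + s • v ∈ ball x₁ ε := by
    intro s hs
    rw [mem_ball, dist_eq_norm] at hx ⊢
    have e : x₁ + s • v - x₁ = s • v := by abel
    rw [e, norm_smul, Real.norm_eq_abs, abs_of_nonneg hs.1]
    calc s * ‖v‖ ≤ 1 * ‖v‖ := mul_le_mul_of_nonneg_right hs.2 (norm_nonneg _)
      _ < ε := by rw [one_mul]; exact hx
  set g : ℝ → UP H U := fun s => mk U (fun k => V k (x₁ + s • v)) - G (x₁ + s • v) with hg
  have hder : ∀ s ∈ Icc (0 : ℝ) 1, HasDerivAt g 0 s := by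
    intro s hs
    have hy := hmem s hs
    set y := x₁ + s • v with hyd
    have hyρ : y ∈ ball x₁ ρ := ball_subset_ball (min_le_left _ _) hy
    have hyρ₁ : y ∈ ball x₁ ρ₁ := ball_subset_ball (min_le_right _ _) hy
    obtain ⟨r, hr, hb⟩ := Metric.isOpen_iff.1 isOpen_ball y hyρ
    obtain ⟨hGd, hGv⟩ := hG y hyρ
    obtain ⟨w, hw, hGw⟩ := hGv v hLv
    have h1 := loc_deriv hr (fun k z hz => hsm k z (hb hz)) hLv (apprOn_at hA hyρ₁) hw
    have h2 : HasDerivAt (fun h : ℝ => G (y + h • v)) (fderiv ℝ G y v) 0 := by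
      have h3 : HasDerivAt (fun h : ℝ => y + h • v) v 0 := by
        have := ((hasDerivAt_id (0 : ℝ)).smul_const v).const_add y
        simpa using this
      have h4 : HasFDerivAt G (fderiv ℝ G y) (y + (0 : ℝ) • v) := by
        rw [zero_smul, add_zero]
        exact hGd.hasFDerivAt
      exact h4.comp_hasDerivAt (0 : ℝ) h3
    rw [hGw] at h2
    have h3 := h1.sub h2
    rw [sub_self] at h3
    have h4 : HasDerivAt (fun h : ℝ => g (s + h)) 0 0 := by
      refine h3.congr_of_eventuallyEq (Eventually.of_forall fun h => ?_)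
      have e : x₁ + (s + h) • v = y + h • v := by rw [hyd, add_smul, add_assoc]
      show mk U (fun k => V k (x₁ + (s + h) • v)) - G (x₁ + (s + h) • v) = _
      rw [e]
      rfl
    have h4' : HasDerivAt (fun h : ℝ => g (s + h)) 0 (s - s) := by rw [sub_self]; exact h4
    have h5 : HasDerivAt (fun h : ℝ => g (s + (h - s))) 0 s := h4'.comp_sub_const s s
    simpa using h5
  have hconst := constant_of_has_deriv_right_zero (f := g) (a := 0) (b := 1)
    (fun s hs => (hder s hs).continuousAt.continuousWithinAt)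
    (fun s hs => (hder s (Ico_subset_Icc_self hs)).hasDerivWithinAt) 1 (right_mem_Icc.2 zero_le_one)
  rw [hg] at hconst
  simp only [one_smul, zero_smul, add_zero] at hconst
  have e : x₁ + v = x := by rw [hv]; abel
  rw [e] at hconst
  have h1 := sub_eq_iff_eq_add.1 hconst
  rw [h1]
  abel

end Vale.Agent.P284.H366.PT
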