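import Vale.Agent.P284.H366.LimE

/-!
# Potentials (`PotS`): local statements

Everything is local, for sequences of Hilbert valued functions; `Appr U z v φ`: `v` is equi-Lipschitz and
`L²`-close to `φ` near `z`.
-/

open scoped Manifold ContDiff Topology InnerProductSpace ComplexConjugate ENNReal Matrix
open Filter Set MeasureTheory Metric

noncomputable section

set_option linter.unusedSectionVars false

namespace Vale.Agent.P284.H366.PT

open Vale.Agent.P272.K Vale.Agent.P284.H894 Vale.Agent.P284.H894.G Vale.Agent.P284.H894.V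
  Vale.Agent.P284.H894.W Vale.Agent.P284.H501 Vale.Agent.P284.H501.Core Vale.Agent.P284.H619
  Vale.Agent.P284.H402.A Vale.Agent.P284.H402.B Vale.Agent.P284.H551 Vale.Agent.P284.H366

/-- (I) change of coordinates -/
def CompStmt : Prop :=
  ∀ (n : ℕ) (H : ℕ → Type) [∀ k, NormedAddCommGroup (H k)] [∀ k, InnerProductSpace ℂ (H k)]
    (U : Ultrafilter ℕ) (T : Cm n → Cm n) (z₀ : Cm n), AnalyticAt ℂ T z₀ →
    Function.Bijective (fderiv ℂ T z₀) → ∀ v φ : ∀ k, Cm n → H k, Appr U (T z₀) v φ →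
    Appr U z₀ (fun k z => v k (T z)) (fun k z => φ k (T z))

/-- (II.a) subtraction of functions of `L x` -/
def LocBStmt : Prop :=
  ∀ (n q : ℕ) (H : ℕ → Type) [∀ k, NormedAddCommGroup (H k)] [∀ k, InnerProductSpace ℂ (H k)]
    [∀ k, CompleteSpace (H k)] (U : Ultrafilter ℕ) (L : Cm n →L[ℂ] Cm q), Function.Surjective L →
    ∀ (Ψ : ∀ k, Cm n → H k) (ρ : ℝ), 0 < ρ → (∀ k, ∀ x ∈ ball 0 ρ, ContDiffAt ℝ 1 (Ψ k) x) →
    (∀ v, L v = 0 → ∃ w, Appr U 0 w fun k x => fderiv ℝ (Ψ k) x v) →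
    ∃ (b : ∀ k, Cm q → H k) (r : ℝ), 0 < r ∧
      ∀ x ∈ ball 0 r, ∃ V, Appr U x V fun k y => Ψ k y - b k (L y)

/-- (II.b) the derivative of the limit in the vertical directions -/
def LocDStmt : Prop :=
  ∀ (n q : ℕ) (H : ℕ → Type) [∀ k, NormedAddCommGroup (H k)] [∀ k, InnerProductSpace ℂ (H k)]
    [∀ k, CompleteSpace (H k)] (U : Ultrafilter ℕ) (L : Cm n →L[ℂ] Cm q) (Ψ : ∀ k, Cm n → H k)
    (x₁ : Cm n) (ρ : ℝ), 0 < ρ → (∀ k, ∀ x ∈ ball x₁ ρ, ContDiffAt ℝ 1 (Ψ k) x) →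
    ∀ (b : ∀ k, Cm q → H k) (V : ∀ k, Cm n → H k), Appr U x₁ V (fun k y => Ψ k y - b k (L y)) →
    ∀ G : Cm n → UP H U, (∀ x ∈ ball x₁ ρ, DifferentiableAt ℝ G x ∧ ∀ v, L v = 0 →
      ∃ w, Appr U x w (fun k y => fderiv ℝ (Ψ k) y v) ∧ fderiv ℝ G x v = mk U fun k => w k x) →
    ∃ ε > 0, ∀ x ∈ ball x₁ ε, L x = L x₁ →
      mk U (fun k => V k x) = mk U (fun k => V k x₁) + (G x - G x₁)

section
variable {n q : ℕ} {Γ : Type} [Group Γ] {C : Coc n Γ}

/-- the lift of a real test function: a function on the covering with values in `ℓ²(Γ)` -/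
def PhiF {f : Γ → C.I → Cm n → ℝ} (hf : IsTst C f) (γ : Γ) (a : C.I) (z : Cm n) : L2 Γ :=
  vec hf.fin.toFinset γ fun g => ((f g a z : ℝ) : ℂ)

end

section
variable {Γ : Type}

lemma memlp_conj (u : lp (fun _ : Γ => ℂ) 2) : Memℓp (fun x => conj (u x)) 2 := by
  have h := lp.memℓp u
  rw [memℓp_gen_iff (by norm_num)] at h ⊢
  simpa using h

/-- complex conjugation of `ℓ²(Γ)`, as a function -/
def cj0 (u : L2 Γ) : L2 Γ :=
  (⟨fun x => conj ((show lp (fun _ : Γ => ℂ) 2 from u) x), memlp_conj _⟩ :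
    lp (fun _ : Γ => ℂ) 2)

lemma co_cj0 (u : L2 Γ) (x : Γ) : co (cj0 u) x = conj (co u x) := rfl

lemma norm_cj0 (u : L2 Γ) : ‖cj0 u‖ = ‖u‖ := by
  have h1 : ‖(show lp (fun _ : Γ => ℂ) 2 from cj0 u)‖ = ‖(show lp (fun _ : Γ => ℂ) 2 from u)‖ := by
    rw [lp.norm_eq_tsum_rpow (by norm_num), lp.norm_eq_tsum_rpow (by norm_num)]
    congr 1
    refine tsum_congr fun x => ?_
    have : (show lp (fun _ : Γ => ℂ) 2 from cj0 u) x =
        conj ((show lp (fun _ : Γ => ℂ) 2 from u) x) := rfl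
    rw [this, RCLike.norm_conj]
  exact h1

variable (Γ) in
/-- complex conjugation of `ℓ²(Γ)` -/
def cj : L2 Γ →SL[starRingEnd ℂ] L2 Γ :=
  LinearMap.mkContinuous
    { toFun := cj0
      map_add' := fun u v => co_ext fun x => by
        show conj (co (u + v) x) = conj (co u x) + conj (co v x)
        rw [← map_add]
        rfl
      map_smul' := fun c u => co_ext fun x => by
        show conj (co (c • u) x) = conj c * conj (co u x)
        rw [← map_mul]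
        rfl } 1 fun u => by
      rw [one_mul]
      exact (norm_cj0 u).le

lemma cj_apply (u : L2 Γ) : cj Γ u = cj0 u := rfl

lemma norm_cj (u : L2 Γ) : ‖cj Γ u‖ = ‖u‖ := norm_cj0 u

variable (Γ) in
/-- complex conjugation of the ultraproduct -/
def cjU (U : Ultrafilter ℕ) : WU Γ U →SL[starRingEnd ℂ] WU Γ U :=
  upMap U (fun _ => cj Γ) ⟨1, fun _ => LinearMap.mkContinuous_norm_le _ zero_le_one _⟩

lemma cjU_mk (U : Ultrafilter ℕ) {x : ℕ → L2 Γ} (hx : Bd x) :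
    cjU Γ U (mk U x) = mk U fun k => cj Γ (x k) := upMap_mk _ hx

end

/-- (III.a) **LocPot**: near a regular point of a piece, in the coordinates of the piece. -/
def LocPotStmt : Prop :=
  ∀ (n : ℕ) (X : Type) [TopologicalSpace X] [T2Space X] [CompactSpace X] [ConnectedSpace X]
    [ChartedSpace (Cm n) X] [IsManifold 𝓘(ℂ, Cm n) ω X]
    (w : Chart n X → Cm n → Matrix (Fin n) (Fin n) ℂ), IsKahler w →
    ∀ (E Γ : Type) [TopologicalSpace E] [ConnectedSpace E] [Group Γ] [MulAction Γ E]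
      (p : E → X) (hG : IsGalois Γ p) (C : Coc n Γ) (D : ECoc p C) (K : KM C)
      (hKw : ∀ a, K.w a = w (D.e a)) (q : ℕ) (F : E → Cm q) (c : Γ → Cm q) (B : ℝ)
      (hF : HolB p w F B) (hc : Eqv F c) (hreg : ∃ y, Reg (n := n) p F y)
      (f : ℕ → Γ → C.I → Cm n → ℝ) (hf : ∀ k, IsTst C (f k)) (U : Ultrafilter ℕ)
      (_ : TSeq U fun k => tf (hfF hG D K hKw hF hc hreg) (hf k)) (Dm : MD C) (γ : Γ) (a : C.I)
      (z₁ : Cm n), z₁ ∈ Dm.Q a → Function.Surjective (fderiv ℂ (Fc D F γ a) z₁) →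
      ∃ b : ℕ → Cm q → L2 Γ, ∀ᶠ z in 𝓝 z₁,
        ∃ V, Appr U z V fun k y => PhiF (hf k) γ a y - b k (Fc D F γ a y)

/-- (III.b) **LocDer**: the derivative of the limit along the fibre, in the coordinates of the piece. -/
def LocDerStmt : Prop :=
  ∀ (n : ℕ) (X : Type) [TopologicalSpace X] [T2Space X] [CompactSpace X] [ConnectedSpace X]
    [ChartedSpace (Cm n) X] [IsManifold 𝓘(ℂ, Cm n) ω X]
    (w : Chart n X → Cm n → Matrix (Fin n) (Fin n) ℂ), IsKahler w →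
    ∀ (E Γ : Type) [TopologicalSpace E] [ConnectedSpace E] [Group Γ] [MulAction Γ E]
      (p : E → X) (hG : IsGalois Γ p) (C : Coc n Γ) (D : ECoc p C) (K : KM C)
      (hKw : ∀ a, K.w a = w (D.e a)) (q : ℕ) (F : E → Cm q) (c : Γ → Cm q) (B : ℝ)
      (hF : HolB p w F B) (hc : Eqv F c) (hreg : ∃ y, Reg (n := n) p F y)
      (f : ℕ → Γ → C.I → Cm n → ℝ) (hf : ∀ k, IsTst C (f k)) (U : Ultrafilter ℕ)
      (_ : TSeq U fun k => tf (hfF hG D K hKw hF hc hreg) (hf k)) (Dm : MD C) (γ : Γ) (a : C.I)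
      (z₁ : Cm n), z₁ ∈ Dm.Q a → Function.Surjective (fderiv ℂ (Fc D F γ a) z₁) →
      ∀ (b : ℕ → Cm q → L2 Γ) (V : ℕ → Cm n → L2 Γ),
        Appr U z₁ V (fun k y => PhiF (hf k) γ a y - b k (Fc D F γ a y)) →
      ∃ G : Cm n → WU Γ U, AnalyticAt ℂ G z₁ ∧ ∀ᶠ z in 𝓝 z₁,
        IsW (fderiv ℂ (Fc D F γ a) z) (LimS Dm U (fun k => tf (hfF hG D K hKw hF hc hreg) (hf k))
          γ a z) (fderiv ℂ G z) ∧
        (Fc D F γ a z = Fc D F γ a z₁ → mk U (fun k => V k z) = mk U (fun k => V k z₁) +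
          (G z - G z₁) + (cjU Γ U (G z) - cjU Γ U (G z₁)))

/-- (III.c) **LocTrans**: a function of `F` which has approximations at one point of a fibre has
approximations at the nearby points of the fibre, with the same value. -/
def LocTransStmt : Prop :=
  ∀ (n q : ℕ) (H : ℕ → Type) [∀ k, NormedAddCommGroup (H k)] [∀ k, InnerProductSpace ℂ (H k)]
    (U : Ultrafilter ℕ) (t : Cm n → Cm q) (z₁ : Cm n), AnalyticAt ℂ t z₁ →
    Function.Surjective (fderiv ℂ t z₁) → ∀ b : ∀ k, Cm q → H k,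
    ∃ N ∈ 𝓝 z₁, ∀ z ∈ N, ∀ z' ∈ N, t z = t z' →
      (∃ V, Appr U z V fun k y => b k (t y)) → ∃ V', Appr U z' V' fun k y => b k (t y)

/-- its value is locally constant along the fibre -/
def LocConstStmt : Prop :=
  ∀ (n q : ℕ) (H : ℕ → Type) [∀ k, NormedAddCommGroup (H k)] [∀ k, InnerProductSpace ℂ (H k)]
    (U : Ultrafilter ℕ) (t : Cm n → Cm q) (z₁ : Cm n), AnalyticAt ℂ t z₁ →
    Function.Surjective (fderiv ℂ t z₁) → ∀ (V : ∀ k, Cm n → H k) (b : ∀ k, Cm q → H k),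
    Appr U z₁ V (fun k y => b k (t y)) →
    ∀ᶠ z in 𝓝 z₁, t z = t z₁ → mk U (fun k => V k z) = mk U fun k => V k z₁

end Vale.Agent.P284.H366.PT
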